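import Vale.Agent.P083.Construction
import Vale.Agent.P083.Ultrapower

/-!
Negative answer to Kirchberg's embedding problem for the norm ultrapower of the Cuntz algebra.
-/

namespace Vale.Agent.Results.P083.KirchbergNegative

open Vale.Agent.P083

lemma isCuntzTwo_of_generates {B : Type} [CStarAlgebra B] (h : CuntzPairGenerates B) :
    IsCuntzTwo B := by
  obtain ⟨s₀, s₁, h0, h1, h2, hd⟩ := h
  refine ⟨![s₀, s₁], fun i => ?_, by simpa using h2, ?_⟩
  · fin_cases i <;> simpa
  · refine eq_top_iff.mpr fun x _ => ?_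
    rw [← SetLike.mem_coe, StarSubalgebra.topologicalClosure_coe]
    have : Set.range ![s₀, s₁] = {s₀, s₁} := by simp [Set.pair_comm]
    rw [this]
    exact hd x

lemma generates_algB : CuntzPairGenerates algB := by
  obtain ⟨s, h1, h2, h3⟩ := algB_cuntz
  refine ⟨s 0, s 1, h1 0, h1 1, h2, fun x => ?_⟩
  have e : ({s 0, s 1} : Set algB) = Set.range s := by
    ext z
    simp only [Set.mem_insert_iff, Set.mem_singleton_iff, Set.mem_range, Fin.exists_fin_two]
    constructor
    · rintro (rfl | rfl)
      exacts [Or.inl rfl, Or.inr rfl]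
    · rintro (h | h)
      exacts [Or.inl h.symm, Or.inr h.symm]
  rw [e, ← StarSubalgebra.topologicalClosure_coe, h3]
  trivial

theorem result :
    (∃ (B : Type) (_ : CStarAlgebra B), Nontrivial B ∧ CuntzPairGenerates B) ∧
    ∃ (A : Type) (_ : CStarAlgebra A), Nontrivial A ∧ TopologicalSpace.SeparableSpace A ∧
      ∀ (B : Type) [CStarAlgebra B], Nontrivial B → CuntzPairGenerates B → ∀ ω : Ultrafilter ℕ,
        (¬ ∃ φ : A →⋆ₐ[ℂ] NormUltrapower B ω, Function.Injective φ) ∧
        ¬ ∃ φ : A →⋆ₙₐ[ℂ] NormUltrapower B ω, Function.Injective φ := by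
  refine ⟨⟨algB, inferInstance, inferInstance, generates_algB⟩,
    algA, inferInstance, inferInstance, inferInstance, ?_⟩
  intro B _ hn hB ω
  have key : ∀ φ : algA →⋆ₙₐ[ℂ] NormUltrapower B ω, ¬ Function.Injective φ := by
    intro φ hφ
    let ψ : algA →⋆ₙₐ[ℂ] ultrapower B ω :=
      { toFun := fun a => φ a
        map_smul' := fun c a => map_smul φ c a
        map_zero' := map_zero φ
        map_add' := fun a b => map_add φ a b
        map_mul' := fun a b => map_mul φ a b
        map_star' := fun a => map_star φ a }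
    exact algA_no_embedding (isCuntzTwo_of_generates hB) ω ψ hφ
  exact ⟨fun ⟨φ, hφ⟩ => key φ.toNonUnitalStarAlgHom hφ, fun ⟨φ, hφ⟩ => key φ hφ⟩

end Vale.Agent.Results.P083.KirchbergNegative
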